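import Vale.Agent.P247.H526.LA2

/-!
# P247, stage 2: assembly
-/

open scoped ContDiff
open Set MeasureTheory Filter Topology

noncomputable section

namespace Vale.Agent.P247.H526

open Vale.Agent.P247 Vale.Agent.P247.H74

theorem val_self (a : CForm) (x u : R4) : a.val x u u = 0 := by
  simp only [CForm.val, a.κ_self]; ring

theorem val_add_right (a : CForm) (x u v w : R4) : a.val x u (v + w) = a.val x u v + a.val x u w := by
  simp only [CForm.val, map_add, _root_.add_apply]; ring

theorem val_smul_right (a : CForm) (x u v : R4) (s : ℝ) : a.val x u (s • v) = s * a.val x u v := by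
  simp only [CForm.val, map_smul, _root_.smul_apply, smul_eq_mul]; ring

theorem val_J (D : Data) (j : Fin 2) (x u : R4) : (D.η j).val x u (D.J x u) = 0 := by
  rw [D.η_J]
  exact Finset.sum_eq_zero fun k _ => by rw [val_self, mul_zero]

theorem phi_contDiff' {f : P2 → R4} (hf : ContDiff ℝ ∞ f) : ContDiff ℝ ∞ (phi f) :=
  Vale.Agent.P247.H74.phi_contDiff hf

/-- a `J`-torus is isotropic for the two forms -/
theorem torus_isotropic {D : Data} {f : P2 → R4} {τ : ℂ} (h : JT D f τ) (j : Fin 2) (p : P2) :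
    (D.η j).val (phi f p) (ds (phi f) p) (dt (phi f) p) = 0 := by
  rw [h.eq p, val_add_right, val_smul_right, val_smul_right, val_self, val_J]
  ring

/-- `u` and `J u` are independent -/
theorem J_indep (D : Data) (x : R4) {u : R4} (hu : u ≠ 0) {s t : ℝ}
    (h : s • u + t • D.J x u = 0) : s = 0 ∧ t = 0 := by
  have h1 : s • D.J x u - t • u = 0 := by
    have := congrArg (D.J x) h
    rw [map_add, map_smul, map_smul, D.J_sq, map_zero, smul_neg] at this
    rw [← this]; abel
  have h2 : (s ^ 2 + t ^ 2) • u = 0 := by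
    have : (s ^ 2 + t ^ 2) • u = s • (s • u + t • D.J x u) - t • (s • D.J x u - t • u) := by
      module
    rw [this, h, h1]; simp
  have h3 : s ^ 2 + t ^ 2 = 0 := (smul_eq_zero.1 h2).resolve_right hu
  constructor <;> nlinarith [sq_nonneg s, sq_nonneg t]

theorem torus_imm {D : Data} {f : P2 → R4} {τ : ℂ} (h : JT D f τ) (hI : Imm f) (p : P2) :
    Function.Injective (fderiv ℝ (phi f) p) := by
  rw [injective_iff_map_eq_zero]
  rintro ⟨x, y⟩ hxy
  have e1 : ((x, y) : P2) = x • ((1 : ℝ), (0 : ℝ)) + y • ((0 : ℝ), (1 : ℝ)) := by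
    simp
  rw [e1, map_add, map_smul, map_smul] at hxy
  have e2 : fderiv ℝ (phi f) p (1, 0) = ds (phi f) p := rfl
  have e3 : fderiv ℝ (phi f) p (0, 1) = dt (phi f) p := rfl
  rw [e2, e3, h.eq p] at hxy
  have e4 : (x + y * τ.re) • ds (phi f) p + (y * τ.im) • D.J (phi f p) (ds (phi f) p) = 0 := by
    rw [← hxy]; module
  obtain ⟨h5, h6⟩ := J_indep D (phi f p) (hI p) e4
  have hy : y = 0 := (mul_eq_zero.1 h6).resolve_right h.im_pos.ne'
  have hx : x = 0 := by rw [hy] at h5; simpa using h5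
  rw [hx, hy]; rfl

theorem ASM : H574.ASM_statement := by
  intro hH hI hL hT hA hF w hw hn
  obtain ⟨b, c, hbc, D, hD, hD0, hD1⟩ := hA w hw
  obtain ⟨S⟩ := hI D (hH D hD)
  obtain ⟨f, hf, hper, hImm, hInj, hiso⟩ := hT D hD S (hL D S)
  have key : ∀ (d : Fin 3 → ℝ) (x u v : R4), comb w d 1 x u v =
      ∑ j, d j * Stmt.val (w j) x u v := by
    intro d x u v
    simp only [comb, Am_one]
  have hsh := fun (m n : ℤ) (p : P2) => Vale.Agent.P247.H74.phi_shift hper m n p
  refine hF w hw hn b c hbc 1 Matrix.det_one (phi f) (phi_contDiff' hf) (fun s t => ?_)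
    (fun s t => ?_) hImm hInj (fun p => ?_) (fun p => ?_)
  · have h1 := hsh 1 0 (s, t)
    simp only [Int.cast_one, Int.cast_zero, add_zero] at h1
    rw [h1]
    funext j
    have : ∀ j : Fin 4, (![0, 0, 1, 0] : Fin 4 → ℤ) j = (1 : Matrix (Fin 4) (Fin 4) ℤ) j 2 := by decide
    rw [this j]
  · have h1 := hsh 0 1 (s, t)
    simp only [Int.cast_one, Int.cast_zero, add_zero] at h1
    rw [h1]
    funext j
    have : ∀ j : Fin 4, (![0, 0, 0, 1] : Fin 4 → ℤ) j = (1 : Matrix (Fin 4) (Fin 4) ℤ) j 3 := by decide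
    rw [this j]
  · rw [← key, ← hD0]
    exact hiso 0 p
  · rw [← key, ← hD1]
    exact hiso 1 p

end Vale.Agent.P247.H526
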