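import Vale.Agent.P247.H74.LA.Main
import Vale.Agent.P247.H574.Sta2

/-!
# P247, package LA2: data for the class of the last two coordinates from any hypersymplectic triple
-/

open scoped ContDiff
open Set MeasureTheory Filter Topology

noncomputable section

namespace Vale.Agent.P247.H526

open Vale.Agent.P247 Vale.Agent.P247.H74

variable {θ : Fin 3 → Vale.Agent.P247.Form 2}

/-- the third form tames `J` up to a sign -/
theorem sgn_of (hθ : IsHypersymplectic θ) :
    ∃ ε : ℝ, ε ≠ 0 ∧ ∀ x u, u ≠ 0 → 0 < ε * θ 2 x ![u, JT' θ x u] := by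
  have hne : ∀ x (u : R4), u ≠ 0 → θ 2 x ![u, JT' θ x u] ≠ 0 := fun x u hu =>
    (hpj_of hθ x).tame (hPP_of hθ x) (hδ_of hθ x) hu
  have hcont : Continuous fun q : R4 × R4 => θ 2 q.1 ![q.2, JT' θ q.1 q.2] := by
    have h2 : (fun q : R4 × R4 => θ 2 q.1 ![q.2, JT' θ q.1 q.2]) = fun q : R4 × R4 =>
        ∑ i, ∑ j, q.2 i * (JT' θ q.1 q.2) j * comp (θ 2 q.1) i j := by
      funext q
      exact apply_eq _ _ _
    rw [h2]
    have hJc : Continuous fun q : R4 × R4 => JT' θ q.1 q.2 :=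
      ((sJ_of hθ).continuous.comp continuous_fst).clm_apply continuous_snd
    refine continuous_finsetSum _ fun i _ => continuous_finsetSum _ fun j _ => ?_
    exact (((continuous_apply i).comp continuous_snd).mul
      ((continuous_apply j).comp hJc)).mul
        ((((hθ.spc 2).1.comp2 i j).continuous).comp continuous_fst)
  have hconn : IsPreconnected ((univ : Set R4) ×ˢ ({0}ᶜ : Set R4)) := by
    refine isPreconnected_univ.prod ?_
    refine (isConnected_compl_singleton_of_one_lt_rank ?_ 0).isPreconnected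
    simp
  have himg := hconn.image _ hcont.continuousOn
  have hall : (∀ x (u : R4), u ≠ 0 → 0 < θ 2 x ![u, JT' θ x u]) ∨
      (∀ x (u : R4), u ≠ 0 → θ 2 x ![u, JT' θ x u] < 0) := by
    by_contra hcon
    push Not at hcon
    obtain ⟨⟨x, u, hu, hxu⟩, ⟨y, v, hv, hyv⟩⟩ := hcon
    have m1 : θ 2 x ![u, JT' θ x u] ∈ (fun q : R4 × R4 => θ 2 q.1 ![q.2, JT' θ q.1 q.2]) ''
        ((univ : Set R4) ×ˢ ({0}ᶜ : Set R4)) := ⟨(x, u), ⟨trivial, hu⟩, rfl⟩
    have m2 : θ 2 y ![v, JT' θ y v] ∈ (fun q : R4 × R4 => θ 2 q.1 ![q.2, JT' θ q.1 q.2]) ''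
        ((univ : Set R4) ×ˢ ({0}ᶜ : Set R4)) := ⟨(y, v), ⟨trivial, hv⟩, rfl⟩
    obtain ⟨q, hq, hq0⟩ := himg.Icc_subset m1 m2 ⟨hxu, hyv⟩
    exact hne q.1 q.2 hq.2 hq0
  rcases hall with hpos | hneg
  · exact ⟨1, one_ne_zero, fun x u hu => by rw [one_mul]; exact hpos x u hu⟩
  · exact ⟨-1, by norm_num, fun x u hu => by linarith [hneg x u hu]⟩

/-- the data of a definite triple, when the third form is correctly oriented -/
theorem data_good (hθ : IsHypersymplectic θ) (ε : ℝ)
    (hε : ∀ x u, u ≠ 0 → 0 < ε * θ 2 x ![u, JT' θ x u])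
    (h0 : (Vale.Agent.P247.mean (θ 0)) ![e 2, e 3] = 0)
    (h1 : (Vale.Agent.P247.mean (θ 1)) ![e 2, e 3] = 0)
    (h2 : 0 < ε * (Vale.Agent.P247.mean (θ 2)) ![e 2, e 3]) :
    ∃ D : Data, H574.Good D ∧ (∀ x u v, (D.η 0).val x u v = θ 0 x ![u, v]) ∧
      ∀ x u v, (D.η 1).val x u v = θ 1 x ![u, v] := by
  obtain ⟨C0, hC0, hk0⟩ := exists_cform (hθ.spc 0)
  obtain ⟨C1, hC1, hk1⟩ := exists_cform (hθ.spc 1)
  obtain ⟨C2, hC2, hk2⟩ := exists_cform ((hθ.spc 2).smul ε)
  have hcls0 : C0.κ (e 2) (e 3) = 0 := by rw [hk0]; exact h0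
  have hcls1 : C1.κ (e 2) (e 3) = 0 := by rw [hk1]; exact h1
  have htame : ∀ x u, u ≠ 0 → 0 < C2.val x u (JT' θ x u) := by
    intro x u hu
    rw [hC2]
    exact hε x u hu
  refine ⟨{ J := JT' θ, J_smooth := (sJ_of hθ).1, J_per := (sJ_of hθ).2,
            J_sq := fun x u => (hpj_of hθ x).sq (hPP_of hθ x).left u,
            η := ![C0, C1], om := C2, c := cT' θ, c_smooth := (sc_of hθ).1,
            c_per := (sc_of hθ).2,
            η_J := ?_, nd := ?_, c_sq := fun x => (hpj_of hθ x).c2, tame := htame, cls := ?_,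
            kne := kne_of hθ hk0 hcls0 }, ⟨?_, ?_⟩, fun x u v => hC0 x u v,
            fun x u v => hC1 x u v⟩
  · intro j x u v
    rw [Fin.sum_univ_two]
    fin_cases j
    · show C0.val x u (JT' θ x v) = cT' θ x 0 0 * C0.val x u v + cT' θ x 0 1 * C1.val x u v
      rw [hC0, hC0, hC1]
      exact (hpj_of hθ x).h0 u v
    · show C1.val x u (JT' θ x v) = cT' θ x 1 0 * C0.val x u v + cT' θ x 1 1 * C1.val x u v
      rw [hC0, hC1, hC1]
      exact (hpj_of hθ x).h1 u v
  · intro x u v hu h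
    have e0 := h 0
    have e1 := h 1
    change C0.val x u v = 0 at e0
    change C1.val x u v = 0 at e1
    rw [hC0] at e0
    rw [hC1] at e1
    exact (hpj_of hθ x).nd (hPP_of hθ x) hu e0 e1
  · intro j
    fin_cases j
    · exact hcls0
    · exact hcls1
  · intro x
    have hw := (hθ.def3 x).wedge_pos 0
    have key : H574.w4 (fun u v => C0.val x u v) (fun u v => C0.val x u v) =
        wedge (θ 0 x) (θ 0 x) := by
      simp only [H574.w4, hC0]
      rfl
    show 0 < H574.w4 (fun u v => C0.val x u v) (fun u v => C0.val x u v)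
    rw [key]
    exact hw
  · show 0 < C2.κ (e 2) (e 3)
    rw [hk2, Vale.Agent.P247.mean_smul ε (hθ.spc 2).1]
    exact h2

/-- the class vector of a definite triple does not vanish -/
theorem tvec_ne (hθ : IsHypersymplectic θ) :
    ∃ i, (Vale.Agent.P247.mean (θ i)) ![e 2, e 3] ≠ 0 := by
  by_contra hcon
  push Not at hcon
  have hd := def3_mean hθ
  set κ : Fin 3 → Form2 := fun i => Vale.Agent.P247.mean (θ i) with hκ
  -- two linear conditions on the coefficients
  let L : (Fin 3 → ℝ) →ₗ[ℝ] (Fin 2 → ℝ) := LinearMap.pi ![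
    ∑ i, (comp (κ i) 0 2 - comp (κ i) 1 3) • LinearMap.proj i,
    ∑ i, (comp (κ i) 0 3 + comp (κ i) 1 2) • LinearMap.proj i]
  have hk : LinearMap.ker L ≠ ⊥ := by
    apply LinearMap.ker_ne_bot_of_finrank_lt
    simp
  obtain ⟨c, hc, hc0⟩ := (Submodule.ne_bot_iff _).1 hk
  have hc1 := congrFun (LinearMap.mem_ker.1 hc) 0
  have hc2 := congrFun (LinearMap.mem_ker.1 hc) 1
  simp [L] at hc1 hc2
  have hp := hd c hc0
  have h23 : ∀ i, comp (κ i) 2 3 = 0 := hcon
  simp only [Fin.sum_univ_three] at hc1 hc2 hp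
  rw [wedge_def] at hp
  simp only [comp_add, comp_smul, h23, mul_zero, add_zero] at hp
  set a := c 0 * comp (κ 0) 0 2 + c 1 * comp (κ 1) 0 2 + c 2 * comp (κ 2) 0 2 with ha
  set b := c 0 * comp (κ 0) 1 3 + c 1 * comp (κ 1) 1 3 + c 2 * comp (κ 2) 1 3 with hb
  set d := c 0 * comp (κ 0) 0 3 + c 1 * comp (κ 1) 0 3 + c 2 * comp (κ 2) 0 3 with hd'
  set f := c 0 * comp (κ 0) 1 2 + c 1 * comp (κ 1) 1 2 + c 2 * comp (κ 2) 1 2 with hf
  have e1 : a = b := by rw [ha, hb]; linear_combination hc1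
  have e2 : d = -f := by rw [hd', hf]; linear_combination hc2
  rw [e1, e2] at hp
  nlinarith [hp, sq_nonneg b, sq_nonneg f]

/-- two independent vectors orthogonal to a given nonzero vector -/
theorem exists_perp (T : Fin 3 → ℝ) (hT : ∃ i, T i ≠ 0) :
    ∃ b c : Fin 3 → ℝ, (∀ s t : ℝ, (∀ i, s * b i + t * c i = 0) → s = 0 ∧ t = 0) ∧
      ∑ i, b i * T i = 0 ∧ ∑ i, c i * T i = 0 := by
  obtain ⟨i, hi⟩ := hT
  fin_cases i
  · refine ⟨![-T 1, T 0, 0], ![-T 2, 0, T 0], fun s t h => ?_, ?_, ?_⟩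
    · have h1 := h 1
      have h2 := h 2
      simp at h1 h2 hi
      exact ⟨h1.resolve_right hi, h2.resolve_right hi⟩
    · simp [Fin.sum_univ_three]; ring
    · simp [Fin.sum_univ_three]; ring
  · refine ⟨![T 1, -T 0, 0], ![0, -T 2, T 1], fun s t h => ?_, ?_, ?_⟩
    · have h1 := h 0
      have h2 := h 2
      simp at h1 h2 hi
      exact ⟨h1.resolve_right hi, h2.resolve_right hi⟩
    · simp [Fin.sum_univ_three]; ring
    · simp [Fin.sum_univ_three]; ring
  · refine ⟨![T 2, 0, -T 0], ![0, T 2, -T 1], fun s t h => ?_, ?_, ?_⟩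
    · have h1 := h 0
      have h2 := h 1
      simp at h1 h2 hi
      exact ⟨h1.resolve_right hi, h2.resolve_right hi⟩
    · simp [Fin.sum_univ_three]; ring
    · simp [Fin.sum_univ_three]; ring

/-- the identity matrix acts as the identity -/
theorem Am_one (x : R4) : Am 1 x = x := by
  have : ((1 : Matrix (Fin 4) (Fin 4) ℤ).map (Int.cast : ℤ → ℝ)) = 1 :=
    Matrix.map_one _ Int.cast_zero Int.cast_one
  show ((1 : Matrix (Fin 4) (Fin 4) ℤ).map (Int.cast : ℤ → ℝ)).mulVec x = x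
  rw [this, Matrix.one_mulVec]

theorem apply_neg_right (α : Form2) (u v : R4) : α ![u, -v] = -α ![u, v] := by
  rw [← LA.bil_apply, ← LA.bil_apply, map_neg]

theorem JJ_swap (α β : Form2) : LA.JJ β α = -LA.JJ α β := by
  have h1 : LA.rr (coord β) (coord α) = LA.rr (coord α) (coord β) := by
    have : gd (coord β) (coord α) = gd (coord α) (coord β) := by
      simp only [gd, B_comm (coord β) (coord α)]; ring
    simp only [LA.rr, this]
  have h2 : LA.Nm (coord β) (coord α) = -LA.Nm (coord α) (coord β) := by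
    simp only [LA.Nm]; abel
  refine ContinuousLinearMap.ext fun u => ?_
  rw [_root_.neg_apply]
  simp only [LA.JJ, h1, h2, LA.mcl_mulVec, smul_neg, Matrix.neg_mulVec]

theorem LA2 : H574.LA2_statement := by
  intro w hw
  have hw' : IsHypersymplectic w := (stmt_hypersymplectic w).1 hw
  set T : Fin 3 → ℝ := fun i => (Vale.Agent.P247.mean (w i)) ![e 2, e 3] with hT
  obtain ⟨b, c, hbc, hbT, hcT⟩ := exists_perp T (tvec_ne hw')
  obtain ⟨M, M', hM, hM0, hM1⟩ := exists_matrix hbc
  have hθ : IsHypersymplectic (act M w) := isHypersymplectic_act hM hw'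
  have hmean : ∀ k, (Vale.Agent.P247.mean (act M w k)) ![e 2, e 3] = ∑ j, M k j * T j := by
    intro k
    have : Vale.Agent.P247.mean (act M w k) = ∑ j, M k j • Vale.Agent.P247.mean (w j) :=
      mean_comb (fun i => (hw'.spc i).1) (M k)
    rw [this]
    simp only [ContinuousAlternatingMap.sum_apply, ContinuousAlternatingMap.smul_apply,
      smul_eq_mul, hT]
  have hval : ∀ (d : Fin 3 → ℝ) (k : Fin 3), (∀ j, M k j = d j) → ∀ x u v,
      act M w k x ![u, v] = comb w d 1 x u v := by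
    intro d k hk x u v
    simp only [act, hk, comb, Stmt.val, ContinuousAlternatingMap.sum_apply,
      ContinuousAlternatingMap.smul_apply, smul_eq_mul, Am_one]
  have m0 : (Vale.Agent.P247.mean (act M w 0)) ![e 2, e 3] = 0 := by
    rw [hmean]; simp only [hM0]; exact hbT
  have m1 : (Vale.Agent.P247.mean (act M w 1)) ![e 2, e 3] = 0 := by
    rw [hmean]; simp only [hM1]; exact hcT
  have m2 : (Vale.Agent.P247.mean (act M w 2)) ![e 2, e 3] ≠ 0 := by
    intro h
    obtain ⟨i, hi⟩ := tvec_ne hθ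
    fin_cases i
    · exact hi m0
    · exact hi m1
    · exact hi h
  obtain ⟨ε, hε0, hε⟩ := sgn_of hθ
  rcases lt_or_gt_of_ne (mul_ne_zero hε0 m2) with hneg | hpos
  · -- swap the first two forms
    set P : Matrix (Fin 3) (Fin 3) ℝ := !![0, 1, 0; 1, 0, 0; 0, 0, 1] with hP
    have hPP : P * P = 1 := by
      ext i j
      fin_cases i <;> fin_cases j <;> simp [hP, Matrix.mul_apply, Fin.sum_univ_three]
    have hθ' : IsHypersymplectic (act P (act M w)) := isHypersymplectic_act hPP hθ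
    have a0 : act P (act M w) 0 = act M w 1 := by
      funext x; simp [act, hP, Fin.sum_univ_three]
    have a1 : act P (act M w) 1 = act M w 0 := by
      funext x; simp [act, hP, Fin.sum_univ_three]
    have a2 : act P (act M w) 2 = act M w 2 := by
      funext x; simp [act, hP, Fin.sum_univ_three]
    obtain ⟨D, hD, hD0, hD1⟩ := data_good hθ' (-ε) (fun x u hu => by
      have h1 := hε x u hu
      have h2 : JT' (act P (act M w)) x = -JT' (act M w) x := by
        simp only [JT', a0, a1]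
        exact JJ_swap _ _
      have h3 := apply_neg_right (act M w 2 x) u (JT' (act M w) x u)
      rw [a2, h2, _root_.neg_apply, h3]
      linarith) (by rw [a0]; exact m1) (by rw [a1]; exact m0) (by rw [a2]; linarith)
    refine ⟨c, b, fun s t h => ?_, D, hD, fun x u v => ?_, fun x u v => ?_⟩
    · have := hbc t s fun i => by rw [← h i]; ring
      exact ⟨this.2, this.1⟩
    · rw [hD0, a0, hval c 1 hM1]
    · rw [hD1, a1, hval b 0 hM0]
  · obtain ⟨D, hD, hD0, hD1⟩ := data_good hθ ε hε m0 m1 hpos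
    exact ⟨b, c, hbc, D, hD, fun x u v => by rw [hD0, hval b 0 hM0],
      fun x u v => by rw [hD1, hval c 1 hM1]⟩

end Vale.Agent.P247.H526
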